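import Vale.Agent.P014U.X4M.TE.Red
import Vale.Agent.P004M.TE.All
import Vale.Agent.P022K.Cheb.Main

/-!
# The Tate module of `y² = x³ + a x + b` at the odd prime as a representation of `G_ℚ`
(helper58; port of `P004M/TE/Tate.lean`)
-/

set_option linter.all false

open scoped Classical

noncomputable section

namespace Vale.Agent.P014U.X4M.TE

export Vale.Agent.P004M.TE (mat_ch ga_mul ga_one xp_ga open_fix ev_ga conj_sq char_ne disc_ne cs_le
  al al_eq exists_isConj)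

variable [Pp]

open WeierstrassCurve.Affine Vale.Agent.P004H.H666 NumberField P027M.K P025H816 Vale.Agent.P022

section

variable {a b : ℚ}

variable (a b) in
/-- the Tate module -/
abbrev Tm := TM pp (Cv Qb a b).Point

variable (a b) in
/-- the action on the Tate module -/
def rho : GQ →* Module.End ℤ_[pp] (Tm a b) where
  toFun g := TM.map pp (ga g)
  map_one' := LinearMap.ext fun x => TM.ext fun r => ga_one _
  map_mul' g h := LinearMap.ext fun x => TM.ext fun r => ga_mul g h _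

theorem cp_rho (g : GQ) (x : Tm a b) (r : ℕ) : TM.cp r (rho a b g x) = ga g (TM.cp r x) := rfl

variable (hD : 4 * a ^ 3 + 27 * b ^ 2 ≠ 0)
include hD

theorem hdiv (r : ℕ) (y : (Cv Qb a b).Point) (_ : pp ^ r • y = 0) : ∃ z, pp • z = y :=
  mul_surj two_ne_zero hD pp_ne y

theorem card_pow (n : ℕ) : Nat.card (tors (Cv Qb a b).Point (pp ^ n)) = (pp ^ n) ^ 2 :=
  card_mul two_ne_zero hD (pow_ne_zero n pp_ne)

theorem exists_bs : Nonempty (Module.Basis (Fin 2) ℤ_[pp] (Tm a b)) := by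
  have hc : Nat.card (tors (Cv Qb a b).Point pp) = pp ^ 2 := card_mul two_ne_zero hD pp_ne
  have : Module.Finite ℤ_[pp] (Tm a b) :=
    TM.finite (hdiv hD) (Nat.finite_of_card_ne_zero (by rw [hc]; exact pow_ne_zero 2 pp_ne))
  exact ⟨Module.finBasisOfFinrankEq _ _ (TM.finrank_eq (hdiv hD) hc)⟩

/-- a basis -/
def bs : Module.Basis (Fin 2) ℤ_[pp] (Tm a b) := (exists_bs hD).some

/-- the matrices -/
def mt : GQ →* Matrix (Fin 2) (Fin 2) ℤ_[pp] :=
  (LinearMap.toMatrixAlgEquiv (bs hD) : Module.End ℤ_[pp] (Tm a b) →* _).comp (rho a b)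

theorem mt_eq (g : GQ) : mt hD g = LinearMap.toMatrixAlgEquiv (bs hD) (rho a b g) := rfl

theorem mt_apply (g : GQ) (i j : Fin 2) : mt hD g i j = (bs hD).repr (rho a b g (bs hD j)) i :=
  LinearMap.toMatrixAlgEquiv_apply _ _ _ _

/-- the representation -/
def rep : GQ →* GL (Fin 2) ℚ_[pp] :=
  (((algebraMap ℤ_[pp] ℚ_[pp]).mapMatrix (m := Fin 2)).toMonoidHom.comp (mt hD)).toHomUnits

theorem rep_val (g : GQ) :
    (rep hD g : Matrix (Fin 2) (Fin 2) ℚ_[pp]) = (algebraMap ℤ_[pp] ℚ_[pp]).mapMatrix (mt hD g) := rfl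

theorem cont_mt (i j : Fin 2) : Continuous fun g => mt hD g i j := by
  refine continuous_iff_continuousAt.2 fun g₀ => Metric.continuousAt_iff'.2 fun ε hε => ?_
  obtain ⟨n, hn⟩ := PadicInt.exists_pow_neg_lt pp hε
  filter_upwards [ev_ga g₀ (TM.cp n (bs hD j))] with g hg
  obtain ⟨y, hy⟩ := (TM.cp_eq_zero_iff (x := rho a b g (bs hD j) - rho a b g₀ (bs hD j))
    (r := n)).1 (by rw [map_sub, cp_rho, cp_rho, hg, sub_self])
  rw [dist_eq_norm, mt_apply, mt_apply, ← Finsupp.sub_apply, ← map_sub, hy, map_smul,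
    Finsupp.smul_apply, smul_eq_mul, norm_mul, PadicInt.norm_p_pow]
  exact (mul_le_of_le_one_right (by positivity) (PadicInt.norm_le_one _)).trans_lt hn

theorem cont_rep : Continuous (rep hD) := by
  have h : Continuous fun g => (rep hD g : Matrix (Fin 2) (Fin 2) ℚ_[pp]) :=
    continuous_matrix fun i j => continuous_subtype_val.comp (cont_mt hD i j)
  refine Units.continuous_iff.2 ⟨h, ?_⟩
  simp only [← map_inv]
  exact h.comp continuous_inv

theorem scal {g : GQ} {c : ℤ_[pp]} (h : mt hD g = c • (1 : Matrix (Fin 2) (Fin 2) ℤ_[pp])) {n : ℕ}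
    {y : (Cv Qb a b).Point} (hy : pp ^ n • y = 0) : ga g y = ap c n • y := by
  have e : rho a b g = c • (1 : Module.End ℤ_[pp] (Tm a b)) :=
    (LinearMap.toMatrixAlgEquiv (bs hD)).injective (by rw [← mt_eq, h, map_smul, map_one])
  obtain ⟨x, rfl⟩ := TM.exists_cp (hdiv hD) hy
  rw [← cp_rho, e]
  rfl

omit hD in
theorem inj_tors {G H : Type*} [AddCommGroup G] [AddCommGroup H] {f : G →+ H}
    (h : ∀ Q, pp • Q = 0 → f Q = 0 → Q = 0) (n : ℕ) {y : G} (hy : pp ^ n • y = 0) (h0 : f y = 0) :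
    y = 0 := by
  induction n with
  | zero => rwa [pow_zero, one_smul] at hy
  | succ n ih =>
    exact ih (h _ (by rwa [← mul_smul, ← pow_succ']) (by rw [map_nsmul, h0, smul_zero]))

end

variable {A B : ℤ} (hD : 4 * (A : ℚ) ^ 3 + 27 * (B : ℚ) ^ 2 ≠ 0)

section

variable {l : ℕ} [hl : Fact l.Prime] (hg : ¬ (l : ℤ) ∣ 2 * pp * (4 * A ^ 3 + 27 * B ^ 2))
include hg

theorem unr_rep : St.UnrAt (rep hD) l := by
  intro P hP h g h4
  obtain ⟨κ, _, _, _, rd, h1, h2, -⟩ := exists_rd hg hP h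
  have e : rho (A : ℚ) (B : ℚ) g = 1 := LinearMap.ext fun x => TM.ext fun r => by
    rw [cp_rho, Module.End.one_apply, ← sub_eq_zero]
    refine inj_tors h1 r ?_ (by rw [map_sub, h2 g h4, sub_self])
    rw [nsmul_sub, ← map_nsmul, TM.pow_smul_cp, map_zero, sub_zero]
  exact Units.ext (by rw [rep_val, mt_eq, e, map_one, map_one, Units.val_one])

theorem frob_mt {g : GQ} (h : St.IsFrob l g) :
    (mt hD g).trace = -(cs (A : ZMod l) (B : ZMod l) : ℤ_[pp]) ∧ (mt hD g).det = l := by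
  obtain ⟨P, hP, h, h4⟩ := h
  obtain ⟨κ, _, _, _, rd, h1, -, h2⟩ := exists_rd hg hP h
  set S := cs (A : ZMod l) (B : ZMod l) with hS
  have e : rho (A : ℚ) (B : ℚ) g * rho (A : ℚ) (B : ℚ) g + S • rho (A : ℚ) (B : ℚ) g +
      (l : ℤ) • (1 : Module.End ℤ_[pp] (Tm A B)) = 0 := LinearMap.ext fun x => TM.ext fun r => by
    rw [LinearMap.zero_apply, map_zero]
    refine inj_tors h1 r (TM.pow_smul_cp _ r) ?_
    have := frob_ch (char_ne (hg_two hg)) (disc_ne (hg_two hg)) (rd (TM.cp r x))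
    rw [ZMod.card] at this
    simpa only [LinearMap.add_apply, LinearMap.smul_apply, Module.End.mul_apply,
      Module.End.one_apply, map_add, map_zsmul, cp_rho, h2 g h4] using this
  have e' := congrArg (LinearMap.toMatrixAlgEquiv (bs hD)) e
  rw [map_add, map_add, map_mul, map_zsmul, map_zsmul, map_one, map_zero, ← mt_eq,
    ← Int.cast_smul_eq_zsmul ℤ_[pp], ← Int.cast_smul_eq_zsmul ℤ_[pp], Int.cast_natCast] at e'
  refine (mat_ch e').resolve_right fun hs => ?_
  have hH : S ^ 2 ≤ 4 * l := cs_le (hg_two hg)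
  have hl2 : (2 : ℤ) ≤ l := by exact_mod_cast hl.out.two_le
  obtain ⟨m, hm⟩ : ∃ m : ℕ, 2 * |S| + 4 * l < pp ^ m := by
    refine ⟨(2 * |S| + 4 * l).toNat, ?_⟩
    have := Nat.lt_pow_self (n := (2 * |S| + 4 * l).toNat) one_lt
    have h5 : ((2 * |S| + 4 * l).toNat : ℤ) = 2 * |S| + 4 * l := Int.toNat_of_nonneg (by positivity)
    rw [← h5]
    exact_mod_cast this
  obtain ⟨n, hn, hy⟩ : ∃ n : ℤ, 2 * |n| ≤ pp ^ m ∧ ∀ y : Pt A B, pp ^ m • y = 0 → ga g y = n • y := by
    have h5 : (ap (mt hD g 0 0) m : ℤ) < pp ^ m := by exact_mod_cast ZMod.val_lt _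
    by_cases h6 : 2 * (ap (mt hD g 0 0) m : ℤ) ≤ pp ^ m
    · exact ⟨_, by rwa [Nat.abs_cast], fun y hy => by rw [scal hD hs hy, natCast_zsmul]⟩
    · refine ⟨ap (mt hD g 0 0) m - (pp ^ m : ℕ), ?_, fun y hy => ?_⟩
      · rw [abs_sub_comm, abs_of_nonneg] <;> push_cast <;> omega
      · rw [scal hD hs hy, sub_smul, natCast_zsmul, natCast_zsmul, hy, sub_zero]
  have hG : n ^ 2 + S * n + Fintype.card (ZMod l) ≠ 0 := by
    rw [ZMod.card]
    intro h0
    have h5 : (2 * n + S) ^ 2 = S ^ 2 - 4 * l := by linear_combination 4 * h0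
    have h6 : 2 * n + S = 0 := pow_eq_zero_iff two_ne_zero |>.1 (le_antisymm (by omega) (sq_nonneg _))
    have h7 : (l : ℤ) = n * n := by linear_combination h0 - n * h6
    exact hl.out.prime.not_isSquare ⟨n.natAbs, by
      rw [← Int.natAbs_mul, ← h7, Int.natAbs_natCast]⟩
  have hfin : Finite (tors (Pt A B) (pp ^ m)) :=
    Nat.finite_of_card_ne_zero (by rw [card_pow hD]; exact pow_ne_zero 2 (pow_ne_zero m pp_ne))
  have := Fintype.ofFinite (tors (Pt A B) (pp ^ m))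
  have hk := ker_card (char_ne (hg_two hg)) (disc_ne (hg_two hg)) hG
    (Finset.univ.image fun y : tors (Pt A B) (pp ^ m) => rd y) (fun Q hQ => by
      obtain ⟨y, -, rfl⟩ := Finset.mem_image.1 hQ
      rw [← h2 g h4, hy y y.2, map_zsmul])
  rw [Finset.card_image_of_injective _ (fun y y' e => Subtype.ext (sub_eq_zero.1
    (inj_tors h1 m (y - y').2 (by rw [map_sub, show rd y = rd y' from e, sub_self])))),
    Finset.card_univ, ← Nat.card_eq_fintype_card, card_pow hD, ZMod.card, ← hS] at hk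
  push_cast at hk
  generalize (pp : ℤ) ^ m = N at hm hn hk
  have h5 : S * n ≤ |S| * |n| := by rw [← abs_mul]; exact le_abs_self _
  have h6 := abs_nonneg S
  have h7 := abs_nonneg n
  rw [← sq_abs n] at hk
  nlinarith

end

theorem cz_mod (n : ℕ) (g : GQ) :
    PadicInt.toZModPow n ((cyclotomicCharacter Qb pp g.toRingEquiv : ℤ_[pp]ˣ) : ℤ_[pp]) =
      (H853.cyc (pp ^ n) g : ZMod (pp ^ n)) := by
  haveI : ∀ i, HasEnoughRootsOfUnity Qb (pp ^ i) := fun i => by
    have : NeZero ((pp ^ i : ℕ) : Qb) := ⟨by exact_mod_cast (NeZero.ne (pp ^ i))⟩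
    infer_instance
  have h := H853.zt_prim (pp ^ n)
  have h1 := cyclotomicCharacter.spec pp (n := n) g.toRingEquiv _ h.pow_eq_one
  exact ZMod.val_injective _ (h.pow_inj (ZMod.val_lt _) (ZMod.val_lt _)
    (h1.symm.trans (H853.cyc_spec g h.pow_eq_one)))

/-- **the determinant is the cyclotomic character** -/
theorem det_cyc (g : GQ) :
    (mt hD g).det = (cyclotomicCharacter Qb pp g.toRingEquiv : ℤ_[pp]ˣ) := by
  have d0 : (2 * pp * (4 * A ^ 3 + 27 * B ^ 2) : ℤ) ≠ 0 :=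
    mul_ne_zero (mul_ne_zero two_ne_zero (Nat.cast_ne_zero.2 pp_ne)) (by exact_mod_cast hD)
  refine congrFun (((continuous_matrix (cont_mt hD)).matrix_det).ext_on
    (P022K.Cheb.dense_fr (2 * pp * (4 * A ^ 3 + 27 * B ^ 2) : ℤ).natAbs.primeFactors)
    (Units.continuous_val.comp (cyclotomicCharacter.continuous pp ℚ Qb)) ?_) g
  rintro φ ⟨l, hl, m, f⟩
  have := Fact.mk hl
  have hg : ¬ (l : ℤ) ∣ 2 * pp * (4 * A ^ 3 + 27 * B ^ 2) := fun k =>
    m (Nat.mem_primeFactors.2 ⟨hl, Int.natCast_dvd.1 k, Int.natAbs_ne_zero.2 d0⟩)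
  refine (frob_mt hD hg f).2.trans (PadicInt.ext_of_toZModPow.1 fun n => ?_)
  rw [map_natCast]
  exact ((cz_mod n φ).trans (H853.cyc_frob hl (fun hd => hg_ne hg
    ((Nat.prime_dvd_prime_iff_eq hl pp_prime).1 (hl.dvd_of_dvd_pow hd))) f)).symm

theorem det_conj {c : GQ} (hc : St.IsConj c) : (mt hD c).det = -1 :=
  (det_cyc hD c).trans (PadicInt.ext_of_toZModPow.1 fun n => by
    rw [cz_mod, H853.cyc_conj hc, map_neg, map_one])

theorem conj_ne {c : GQ} (hc : St.IsConj c) (ε : ℤ_[pp]) (hε : ε = 1 ∨ ε = -1) :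
    mt hD c ≠ ε • (1 : Matrix (Fin 2) (Fin 2) ℤ_[pp]) := fun h => by
  have := det_conj hD hc
  rw [h, Matrix.det_smul, Matrix.det_one] at this
  rcases hε with rfl | rfl <;> norm_num at this

theorem odd_rep : St.OddRep (rep hD) := fun c hc => by
  rw [rep_val, ← RingHom.map_det, det_conj hD hc, map_neg, map_one]

end Vale.Agent.P014U.X4M.TE
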