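import Vale.Agent.P014U.X4M.TE.Line

/-!
# The Tate module at the odd prime is absolutely irreducible (helper58; port of `P004M/TE/Irr.lean`)
-/

set_option linter.all false

open scoped Classical

noncomputable section

namespace Vale.Agent.P014U.X4M.TE

variable [Pp]

open WeierstrassCurve WeierstrassCurve.Affine P027M.K Vale.Agent.P022 Matrix

variable {A B : ℤ} (hD : 4 * (A : ℚ) ^ 3 + 27 * (B : ℚ) ^ 2 ≠ 0)
include hD

theorem no_vec {v : Fin 2 → ℤ_[pp]} {j : Fin 2} (hj : v j = 1)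
    (h : ∀ g, (mt hD g *ᵥ v) 0 * v 1 = (mt hD g *ᵥ v) 1 * v 0) : False := by
  have e0 : ⇑((bs hD).repr ((bs hD).equivFun.symm v)) = v := by
    rw [← Module.Basis.equivFun_apply, LinearEquiv.apply_symm_apply]
  refine no_line hD (x := (bs hD).equivFun.symm v) (fun h0 => ?_) fun g => ⟨(mt hD g *ᵥ v) j, ?_⟩
  · obtain ⟨y, hy⟩ := TM.cp_eq_zero_iff.1 h0
    have := congrFun e0 j
    rw [hy, hj, map_smul, Finsupp.smul_apply, smul_eq_mul, pow_one] at this
    exact PadicInt.irreducible_p.not_isUnit (IsUnit.of_mul_eq_one _ this)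
  · apply (bs hD).repr.injective
    apply DFunLike.coe_injective
    have e1 := LinearMap.toMatrix_mulVec_repr (bs hD) (bs hD) (rho _ _ g) ((bs hD).equivFun.symm v)
    rw [e0] at e1
    change ⇑((bs hD).repr _) = ⇑((bs hD).repr _)
    rw [← e1, map_smul, Finsupp.coe_smul, e0]
    change mt hD g *ᵥ v = _
    have := h g
    generalize mt hD g *ᵥ v = w at this
    ext i
    rw [Pi.smul_apply, smul_eq_mul]
    fin_cases i <;> fin_cases j <;> simp only [Fin.zero_eta, Fin.mk_one, Fin.isValue] at hj ⊢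
    · rw [hj, mul_one]
    · rw [← this, hj, mul_one]
    · rw [this, hj, mul_one]
    · rw [hj, mul_one]

theorem irr_rep : St.AbsIrr (rep hD) := by
  intro w hw
  by_contra hc
  push Not at hc
  let ι : ℤ_[pp] →+* AlgebraicClosure ℚ_[pp] := (algebraMap ℚ_[pp] _).comp (algebraMap ℤ_[pp] ℚ_[pp])
  have hι : Function.Injective ι :=
    (algebraMap ℚ_[pp] _).injective.comp Subtype.val_injective
  have hc' : ∀ g, ∃ t, ι (mt hD g 0 0) * w 0 + ι (mt hD g 0 1) * w 1 = t * w 0 ∧
      ι (mt hD g 1 0) * w 0 + ι (mt hD g 1 1) * w 1 = t * w 1 := fun g => by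
    obtain ⟨t, ht⟩ := hc g
    have h0 := congrFun ht 0
    have h1 := congrFun ht 1
    rw [mulVec, dotProduct, Fin.sum_univ_two] at h0 h1
    exact ⟨t, h0, h1⟩
  have hw' : ∀ t, t * w 0 = 0 → t * w 1 = 0 → t = 0 := fun t h0 h1 => by
    by_contra ht
    refine hw (funext fun i => ?_)
    fin_cases i
    · exact (mul_eq_zero.1 h0).resolve_left ht
    · exact (mul_eq_zero.1 h1).resolve_left ht
  have key : ∀ p q : ℤ_[pp], ι p * w 0 + ι q * w 1 = 0 → p = 0 ∧ q = 0 := by
    intro p q h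
    have k2 : ∀ (v : Fin 2 → ℤ_[pp]) (j : Fin 2), v j = 1 → ι (v 1) * w 0 = ι (v 0) * w 1 → False := by
      refine fun v j hj hv => no_vec hD hj fun g => hι (sub_eq_zero.1 (hw' _ ?_ ?_))
      all_goals
        obtain ⟨t, h0, h1⟩ := hc' g
        simp only [mulVec, dotProduct, Fin.sum_univ_two, map_add, map_mul]
      · linear_combination ι (v 0) * ι (v 1) * h0 - ι (v 0) ^ 2 * h1 +
          (ι (mt hD g 0 1) * ι (v 1) - ι (mt hD g 1 1) * ι (v 0) + t * ι (v 0)) * hv
      · linear_combination ι (v 1) ^ 2 * h0 - ι (v 0) * ι (v 1) * h1 +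
          (ι (mt hD g 1 0) * ι (v 0) - ι (mt hD g 0 0) * ι (v 1) + t * ι (v 1)) * hv
    rcases ValuationRing.dvd_total p q with ⟨d, rfl⟩ | ⟨d, rfl⟩
    · have h0 : p = 0 := by
        by_contra hp
        refine k2 ![-d, 1] 1 rfl (mul_left_cancel₀ ((map_ne_zero_iff ι hι).2 hp) ?_)
        simp only [cons_val_zero, cons_val_one, map_one, map_neg, map_mul] at h ⊢
        linear_combination h
      exact ⟨h0, by rw [h0, zero_mul]⟩
    · have h0 : q = 0 := by
        by_contra hp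
        refine k2 ![1, -d] 0 rfl (mul_left_cancel₀ ((map_ne_zero_iff ι hι).2 hp) ?_)
        simp only [cons_val_zero, cons_val_one, map_one, map_neg, map_mul] at h ⊢
        linear_combination -h
      exact ⟨by rw [h0, zero_mul], h0⟩
  obtain ⟨c, hcj⟩ := exists_isConj hD
  obtain ⟨t, h0, h1⟩ := hc' c
  have hs : mt hD c * mt hD c = 1 := by rw [← map_mul, conj_sq hD hcj, map_one]
  have s00 := congrArg ι (congrFun (congrFun hs 0) 0)
  have s01 := congrArg ι (congrFun (congrFun hs 0) 1)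
  have s10 := congrArg ι (congrFun (congrFun hs 1) 0)
  have s11 := congrArg ι (congrFun (congrFun hs 1) 1)
  simp only [mul_apply, Fin.sum_univ_two, map_add, map_mul, one_apply_eq, map_one, ne_eq,
    zero_ne_one, one_ne_zero, not_false_eq_true, one_apply_ne, map_zero] at s00 s01 s10 s11
  have ht : t * t = 1 := sub_eq_zero.1 (hw' _
    (by linear_combination w 0 * s00 + w 1 * s01 - (ι (mt hD c 0 0) + t) * h0 - ι (mt hD c 0 1) * h1)
    (by linear_combination w 0 * s10 + w 1 * s11 - ι (mt hD c 1 0) * h0 - (ι (mt hD c 1 1) + t) * h1))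
  obtain ⟨ε, hε, rfl⟩ : ∃ ε : ℤ_[pp], (ε = 1 ∨ ε = -1) ∧ ι ε = t := by
    rcases mul_self_eq_one_iff.1 ht with rfl | rfl
    · exact ⟨1, Or.inl rfl, map_one ι⟩
    · exact ⟨-1, Or.inr rfl, by rw [map_neg, map_one]⟩
  obtain ⟨a0, a1⟩ := key (mt hD c 0 0 - ε) (mt hD c 0 1) (by rw [map_sub]; linear_combination h0)
  obtain ⟨b0, b1⟩ := key (mt hD c 1 0) (mt hD c 1 1 - ε) (by rw [map_sub]; linear_combination h1)
  refine conj_ne hD hcj ε hε (Matrix.ext fun i j => ?_)
  fin_cases i <;> fin_cases j <;> simp [sub_eq_zero.1 a0, a1, b0, sub_eq_zero.1 b1]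

end Vale.Agent.P014U.X4M.TE
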