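import Vale.Agent.P004M.TE.Red
import Vale.Agent.P025.R2.H816.Pic

/-!
# Multiplication by `n` on `y² = x³ + a x + b` over an algebraically closed field of
characteristic zero: it is onto and its kernel has `n ²` elements (helper58)
-/

set_option linter.all false

open scoped Classical

noncomputable section

namespace Vale.Agent.P014U.X4M.TE

open Polynomial WeierstrassCurve.Affine Vale.Agent.P004H.H666 Vale.Agent.P004M.TE P025H816

variable {k : Type} [Field k] {L : Type} [Field L] [Algebra k L] {a b : k}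
  (h2 : (2 : k) ≠ 0) (hD : 4 * a ^ 3 + 27 * b ^ 2 ≠ 0)
include h2 hD

theorem hd_mul {t u : L} (h : (Cv L a b).Nonsingular t u)
    (ht : Function.Injective (aeval t : k[X] →ₐ[k] L)) (n : ℕ) :
    Hd t (n • Point.some t u h) (n ^ 2) := by
  obtain ⟨D, β, hH, -, hβ, -⟩ := exists_D h2 hD h ht
  let R : Mg h2 hD h ht := ⟨_, gen_mem h2 hD h ht⟩
  have e1 := (hH R 1).1 ⟨X, 1, ⟨isCoprime_one_right, 1, one_ne_zero, by simp [R], by simp [R]⟩,
    by simp, natDegree_X⟩
  refine (hH (n • R) _).2 ?_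
  have := hβ (n • R)
  rw [map_nsmul, map_nsmul, AddMonoidHom.nsmul_apply, hβ, e1] at this
  simp only [nsmul_eq_mul] at this
  push_cast at this ⊢
  linarith

theorem unif_mul [IsAlgClosed L] (n : ℕ) : ∃ f g : k[X], g.degree < f.degree ∧
    f.natDegree = n ^ 2 ∧ ∀ (t u : L) (h : (Cv L a b).Nonsingular t u),
      Function.Injective (aeval t : k[X] →ₐ[k] L) → Rp t (n • Point.some t u h) f g := by
  let j : KK k →ₐ[k] AlgebraicClosure (KK k) := IsScalarTower.toAlgHom k (KK k) _
  have e0 : ∀ p : k[X], aeval (ph (X : k[X])) p = ph p := fun p =>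
    (aeval_algHom_apply (IsScalarTower.toAlgHom k k[X] (KK k)) X p).trans (by simp)
  have h0 : Function.Injective (aeval (j (ph X)) : k[X] →ₐ[k] _) := fun p p' e => by
    rw [aeval_algHom_apply j, aeval_algHom_apply j, e0, e0] at e
    exact ph_inj (j.injective e)
  obtain ⟨u₀, hu₀⟩ := exists_pt h2 hD (j (ph X))
  obtain ⟨f, g, hr, hd, c⟩ := hd_mul h2 hD hu₀ h0 n
  refine ⟨f, g, hd, c, fun t u h ht => ?_⟩
  let σ₀ : KK k →ₐ[k] L := IsFractionRing.liftAlgHom (K := KK k) ht
  obtain ⟨σ, hσ⟩ : ∃ σ : AlgebraicClosure (KK k) →ₐ[k] L, σ (j (ph X)) = t := by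
    letI : Algebra (KK k) L := σ₀.toRingHom.toAlgebra
    have : IsScalarTower k (KK k) L := IsScalarTower.of_algHom σ₀
    let τ : AlgebraicClosure (KK k) →ₐ[KK k] L := IsAlgClosed.lift
    refine ⟨τ.restrictScalars k, (τ.commutes (ph X)).trans ?_⟩
    exact (IsFractionRing.lift_algebraMap (K := KK k) (g := (aeval t : k[X] →ₐ[k] L).toRingHom)
      ht X).trans (aeval_X t)
  have h1 := hr.map σ
  rw [map_nsmul, hσ] at h1
  have h3 : xp (pa σ (.some _ u₀ hu₀)) = xp (.some t u h) := by rw [xp_pa, xp_some, xp_some, hσ]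
  rcases xp_eq (by rw [pa_some]; exact Point.some_ne_zero _) (Point.some_ne_zero _) h3 with e | e
  · rwa [e] at h1
  · rw [e, smul_neg] at h1
    obtain ⟨hc, ρ, hρ, hx, hz⟩ := h1
    exact ⟨hc, ρ, hρ, by rwa [xp_neg] at hx, by rwa [zp_neg] at hz⟩

theorem mul_both [IsAlgClosed k] [CharZero k] {n : ℕ} (hn : n ≠ 0) :
    (∀ P : (Cv k a b).Point, ∃ Q, n • Q = P) ∧ Nat.card (tors (Cv k a b).Point n) = n ^ 2 := by
  obtain ⟨T, hT⟩ := exists_gen (κ := k) h2 hD
  obtain ⟨f, g, hd, c, hr⟩ := unif_mul (L := AlgebraicClosure (KK k)) h2 hD n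
  set M := AlgebraicClosure (KK k)
  set j := pa (a := a) (b := b) (IsScalarTower.toAlgHom k k M) with hj
  have ji : Function.Injective j := pa_inj _
  have n2 : f.natDegree ≠ 0 := c ▸ pow_ne_zero 2 hn
  have tr : ∀ {s : M}, Function.Injective (aeval s : k[X] →ₐ[k] M) → ∀ x, s ≠ algebraMap k M x :=
    fun h x e => X_sub_C_ne_zero x (h (by simp [e]))
  have R : ∀ P ∉ j.range, IsCoprime f g ∧ Function.Injective (aeval (xp P) : k[X] →ₐ[k] M) ∧
      aeval (xp P) g ≠ 0 ∧ n • P ≠ 0 ∧ xp (n • P) * aeval (xp P) g = aeval (xp P) f ∧ P ≠ -P := by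
    intro P hP
    obtain ⟨t, u, h, rfl, ht⟩ := gen_of h2 hD hP
    obtain ⟨hc, ρ, hρ, hx, hz⟩ := hr t u h ht
    have g0 : aeval t g ≠ 0 := (map_ne_zero_iff _ ht).2 (by
      rintro rfl
      exact n2 (natDegree_eq_zero_of_isUnit (isCoprime_zero_right.1 hc)))
    have z0 : n • Point.some t u h ≠ 0 := fun e => mul_ne_zero hρ g0 (by rw [← hz, e, zp_zero])
    refine ⟨hc, ht, g0, z0, ?_, fun e => u_ne h ht ((two_tors h2 h).1
      ((two_nsmul _).trans (add_eq_zero_iff_eq_neg.2 e)))⟩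
    generalize n • Point.some t u h = S at hx hz z0
    rcases S with _ | ⟨x, y, h'⟩
    · exact absurd rfl z0
    rw [xp_some] at hx ⊢
    rw [zp_some] at hz
    rw [xp_some, hx]
    linear_combination -(aeval t f) * hz
  have A : ∀ P ∉ j.range, n • P ∉ j.range := by
    rintro P hP ⟨Q, e⟩
    obtain ⟨-, ht, g0, -, e1, -⟩ := R P hP
    refine tr (inj_div ht hd fun k => g0 (by rw [k, map_zero])) (xp Q) ?_
    rw [← e1, ← e, hj, xp_pa, mul_div_cancel_right₀ _ g0]
    rfl
  have T0 : T ∉ j.range := by simpa using hT 0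
  let Ψ : M → M[X] := fun s => f.map (algebraMap k M) - C s * g.map (algebraMap k M)
  have dΨ : ∀ s, (Ψ s).degree = f.degree := fun s => by
    rw [degree_sub_eq_left_of_degree_lt] <;> rw [degree_map]
    exact (dC_le _ _).trans_lt (by rwa [degree_map])
  have Ψ0 : ∀ s, Ψ s ≠ 0 := fun s => by
    rw [← degree_ne_bot, dΨ, degree_ne_bot]; exact ne_of_deg hd
  have eΨ : ∀ s x, aeval x (Ψ s) = aeval x f - s * aeval x g := fun s x => by
    simp [Ψ, aeval_map_algebraMap]
  have B : ∀ S ∉ j.range, ∀ x, aeval x (Ψ (xp S)) = 0 →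
      Function.Injective (aeval x : k[X] →ₐ[k] M) ∧ ∃ Q, n • Q = S ∧ xp Q = x := by
    intro S hS x hx
    obtain ⟨hc, hs, -⟩ := R S hS
    rw [eΨ, sub_eq_zero] at hx
    obtain ⟨y, h⟩ := exists_pt h2 hD x
    have n1 : Point.some x y h ∉ j.range := by
      rintro ⟨Q, e⟩
      obtain rfl : algebraMap k M (xp Q) = x := (xp_pa _ Q).symm.trans (congrArg xp e)
      rw [aeval_algebraMap_apply, aeval_algebraMap_apply] at hx
      by_cases g0 : aeval (xp Q) g = 0
      · rw [g0, map_zero, mul_zero, map_eq_zero] at hx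
        exact (aeval_ne_zero_of_isCoprime hc (xp Q)).elim (· hx) (· g0)
      · refine tr hs (aeval (xp Q) f / aeval (xp Q) g) ?_
        rw [map_div₀, hx, mul_div_cancel_right₀ _ ((_root_.map_ne_zero _).2 g0)]
    obtain ⟨-, ht, g0, z0, e1, -⟩ := R _ n1
    rw [xp_some, hx] at e1
    refine ⟨ht, ?_⟩
    rcases xp_eq z0 (fun e : S = 0 => hS (by rw [e]; exact zero_mem _)) (mul_right_cancel₀ g0 e1)
      with e | e
    · exact ⟨_, e, rfl⟩
    · exact ⟨-_, by rw [smul_neg, e, neg_neg], xp_neg _⟩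
  have D : ∀ {Q : (Cv M a b).Point} {P}, n • Q = n • T + j P → ∃ V, j V = Q - T ∧ n • V = P := by
    intro Q P e
    have e1 : n • (Q - T) = j P := by rw [nsmul_sub, e, add_sub_cancel_left]
    obtain ⟨V, hV⟩ : Q - T ∈ j.range := by_contra fun m => A _ m ⟨P, e1.symm⟩
    exact ⟨V, hV, ji (by rw [map_nsmul, hV, e1])⟩
  constructor
  · intro P
    have hS : n • T + j P ∉ j.range := fun m => A T T0 (by simpa using sub_mem m ⟨P, rfl⟩)
    obtain ⟨x, hx⟩ := IsAlgClosed.exists_root (Ψ (xp (n • T + j P))) (by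
      rw [dΨ, degree_eq_natDegree (ne_of_deg hd)]; exact_mod_cast n2)
    obtain ⟨-, Q, e, -⟩ := B _ hS x hx
    obtain ⟨V, -, e1⟩ := D e
    exact ⟨V, e1⟩
  · have hS := A T T0
    have sp : (Ψ (xp (n • T))).Separable :=
      (isCoprime_iff_aeval_ne_zero_of_isAlgClosed M M _ _).2 fun x => by
        by_contra hc
        push Not at hc
        obtain ⟨ht, -⟩ := B _ hS x hc.1
        obtain ⟨h3, h4⟩ := hc
        rw [eΨ] at h3
        have h5 : aeval x (derivative f) - xp (n • T) * aeval x (derivative g) = 0 := by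
          simpa [Ψ, derivative_map, aeval_map_algebraMap] using h4
        have h6 : derivative f * g = f * derivative g := ht (by
          rw [map_mul, map_mul]
          linear_combination aeval x g * h5 - aeval x (derivative g) * h3)
        have h7 : f ∣ derivative f := (R T T0).1.dvd_of_dvd_mul_right ⟨_, h6⟩
        exact n2 (natDegree_eq_zero_of_derivative_eq_zero
          (eq_zero_of_dvd_of_natDegree_lt h7 (natDegree_derivative_lt n2)))
    rw [← c, ← natDegree_eq_of_degree_eq (dΨ (xp (n • T))), ← card_rootSet_eq_natDegree sp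
      (IsAlgClosed.splits (k := M) _), ← Nat.card_eq_fintype_card]
    have e0 : ∀ P : tors (Cv k a b).Point n, n • (T + j P) = n • T := fun P => by
      rw [nsmul_add, ← map_nsmul, show n • P.1 = 0 from P.2, map_zero, add_zero]
    refine Nat.card_eq_of_bijective (fun P => ⟨xp (T + j P), mem_rootSet.2 ⟨Ψ0 _, ?_⟩⟩)
      ⟨fun P P' e => ?_, fun x => ?_⟩
    · rw [eΨ, ← e0 P, (R _ (hT P)).2.2.2.2.1, sub_self]
    · have hn : ∀ P, T + j P ≠ 0 := fun P e => hT P (e ▸ zero_mem _)
      rcases xp_eq (hn P) (hn P') (congrArg Subtype.val e) with e | e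
      · exact Subtype.ext (ji (add_left_cancel e))
      · refine absurd ?_ (R _ hS).2.2.2.2.2
        rw [eq_neg_iff_add_eq_zero]
        nth_rewrite 1 [← e0 P, ← e0 P']
        rw [← nsmul_add, e, neg_add_cancel, nsmul_zero]
    · obtain ⟨-, Q, e, e1⟩ := B _ hS x (mem_rootSet.1 x.2).2
      obtain ⟨V, e2, e3⟩ := D (P := 0) (e.trans (by rw [map_zero, add_zero]))
      exact ⟨⟨V, e3⟩, Subtype.ext (by rw [← e1]; simp only [e2, add_sub_cancel])⟩

variable [IsAlgClosed L] [CharZero L] {n : ℕ} (hn : n ≠ 0)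
include hn

theorem mul_bothL : (∀ P : (Cv L a b).Point, ∃ Q, n • Q = P) ∧
    Nat.card (tors (Cv L a b).Point n) = n ^ 2 :=
  mul_both (k := L) (a := algebraMap k L a) (b := algebraMap k L b) two_ne_zero (fun h =>
    hD ((algebraMap k L).injective
      (by simpa only [map_add, map_mul, map_pow, map_ofNat, map_zero]))) hn

/-- **multiplication by `n` is onto** -/
theorem mul_surj (P : (Cv L a b).Point) : ∃ Q, n • Q = P := (mul_bothL h2 hD hn).1 P

/-- **the kernel of the multiplication by `n`** -/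
theorem card_mul : Nat.card (tors (Cv L a b).Point n) = n ^ 2 := (mul_bothL h2 hD hn).2

end Vale.Agent.P014U.X4M.TE
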