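import Vale.Agent.P014U.Base
import Vale.Agent.P014U.X4M.TE.Mul
import Vale.Agent.P014T.Lc.Fg

/-!
# The reduction of points at a good prime is injective on the points of order prime to it
(helper58; the proof is the one of `P004M.TE.exists_rd`)
-/

set_option linter.all false

open scoped Classical

noncomputable section

namespace Vale.Agent.P014U.X4M.TE

export Vale.Agent.P004M.TE (Qb GQ Pt ga nsg_ga ga_some Cv pa pa_inj pa_some xp_pa zp_pa xp_eq Fb cs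
  frob_ch ker_card exists_val two_tors dbl dbl_surj card_two three_roots nsg_cv exists_pt)

open Polynomial WeierstrassCurve.Affine Vale.Agent.P004H.H666 NumberField IsDedekindDomain

/-- **reduction at a good prime** -/
theorem exists_rdn {A B : ℤ} {l : ℕ} [hl : Fact l.Prime]
    (hD : ¬ (l : ℤ) ∣ 2 * (4 * A ^ 3 + 27 * B ^ 2)) {P : Ideal (𝓞 Qb)} (hP : P.IsPrime)
    (h : (l : 𝓞 Qb) ∈ P) : ∃ (κ : Type) (_ : Field κ) (_ : IsAlgClosed κ) (_ : Algebra (ZMod l) κ)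
      (rd : Pt A B →+ (Cv κ (A : ZMod l) (B : ZMod l)).Point),
      (∀ (n : ℕ) Q, ¬ l ∣ n → n • Q = 0 → rd Q = 0 → Q = 0) ∧
      (∀ g : GQ, (∀ x : 𝓞 Qb, g • x - x ∈ P) → ∀ Q, rd (ga g Q) = rd Q) ∧
      ∀ g : GQ, (∀ x : 𝓞 Qb, g • x - x ^ l ∈ P) → ∀ Q, rd (ga g Q) = Fb (rd Q) := by
  obtain ⟨O, hO, hg⟩ := exists_val hP hl.out.ne_zero h
  let κ := AlgebraicClosure (IsLocalRing.ResidueField O)
  let ρ : O →+* κ := (algebraMap _ κ).comp (IsLocalRing.residue O)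
  let r : Qb → κ := fun z => if h : z ∈ O then ρ ⟨z, h⟩ else 0
  have hr : ∀ z (h : O.valuation z ≤ 1), r z = ρ ⟨z, (O.valuation_le_one_iff z).1 h⟩ :=
    fun z h => dif_pos ((O.valuation_le_one_iff z).1 h)
  have r0 : ∀ z, O.valuation z ≤ 1 → (r z = 0 ↔ O.valuation z < 1) := by
    intro z hz
    rw [hr z hz, RingHom.comp_apply, map_eq_zero, IsLocalRing.residue_eq_zero_iff,
      ValuationSubring.valuation_lt_one_iff]
  have vi : ∀ n : ℤ, O.valuation (n : Qb) ≤ 1 := fun n =>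
    (O.valuation_le_one_iff _).2 (intCast_mem O n)
  have ri : ∀ n : ℤ, r n = n := fun n => (hr _ (vi n)).trans (map_intCast ρ n)
  have hc : CharP κ l := (CharP.charP_iff_prime_eq_zero hl.out).2 (by
    have := (r0 _ hO.le).2 hO
    rwa [← Int.cast_natCast, ri, Int.cast_natCast] at this)
  letI : Algebra (ZMod l) κ := ZMod.algebra κ l
  have eA : algebraMap ℚ Qb (A : ℚ) = A := map_intCast _ A
  have eB : algebraMap ℚ Qb (B : ℚ) = B := map_intCast _ B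
  have hΔ : O.valuation (Cv Qb (A : ℚ) (B : ℚ)).Δ = 1 := by
    have e : (Cv Qb (A : ℚ) (B : ℚ)).Δ = ((-(2 ^ 3 * (2 * (4 * A ^ 3 + 27 * B ^ 2))) : ℤ) : Qb) := by
      simp only [WeierstrassCurve.Δ, WeierstrassCurve.b₂, WeierstrassCurve.b₄, WeierstrassCurve.b₆,
        WeierstrassCurve.b₈, eA, eB]
      push_cast
      ring
    rw [e]
    refine le_antisymm (vi _) (not_lt.1 fun h1 => ?_)
    rw [← r0 _ (vi _), ri, CharP.intCast_eq_zero_iff κ l, dvd_neg] at h1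
    have hp := Nat.prime_iff_prime_int.1 hl.out
    exact hD ((hp.dvd_or_dvd h1).elim (fun h => (hp.dvd_of_dvd_pow h).mul_right _) id)
  have v0 : O.valuation (0 : Qb) ≤ 1 := by simp
  have r00 : r 0 = 0 := (r0 0 v0).2 (by simp)
  have cf : P179W.CoeffIn (Cv Qb (A : ℚ) (B : ℚ)) {z | O.valuation z ≤ 1} :=
    ⟨v0, v0, v0, (congrArg _ eA).trans_le (vi A), (congrArg _ eB).trans_le (vi B)⟩
  obtain ⟨hy, h3, -⟩ := P179W.ptRed_holds Qb _ O.valuation (Cv Qb (A : ℚ) (B : ℚ)) cf hΔ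
  obtain ⟨-, hn, hadd⟩ := h3 κ r (Cv κ (A : ZMod l) (B : ZMod l))
    (by simpa using ri 1)
    (fun a b ha hb => by rw [hr a ha, hr b hb, hr _ (O.valuation.map_add_le ha hb), ← map_add]; rfl)
    (fun a b ha hb => by rw [hr a ha, hr b hb, hr _ (P179W.val_mul_le_one ha hb), ← map_mul]; rfl)
    r0 r00.symm r00.symm r00.symm
    ((map_intCast _ A).trans ((ri A).symm.trans (congrArg r eA.symm)))
    ((map_intCast _ B).trans ((ri B).symm.trans (congrArg r eB.symm)))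
  let rd : Pt A B →+ (Cv κ (A : ZMod l) (B : ZMod l)).Point := AddMonoidHom.mk' _ hadd
  have d1 : ∀ {x y} (h : (Cv Qb (A : ℚ) (B : ℚ)).Nonsingular x y) (hx : O.valuation x ≤ 1),
      rd (.some x y h) = .some (r x) (r y) (hn x y h.1 hx) :=
    fun h hx => (if_pos hx).trans (P179W.pt_of _)
  have d2 : ∀ {x y} (h : (Cv Qb (A : ℚ) (B : ℚ)).Nonsingular x y), ¬ O.valuation x ≤ 1 →
      rd (.some x y h) = 0 := fun h hx => if_neg hx
  have rg : ∀ (g : GQ) (e : ℕ), e ≠ 0 → (∀ x : 𝓞 Qb, g • x - x ^ e ∈ P) → ∀ z,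
      O.valuation z ≤ 1 → r (g z) = r z ^ e := by
    intro g e he h4 z hz
    obtain ⟨h5, h6⟩ := hg g e he h4 z
    have h7 := (r0 _ (h6 hz).le).2 (h6 hz)
    rw [hr _ (h6 hz).le] at h7
    rw [hr _ (h5.2 hz), hr _ hz, ← map_pow, ← sub_eq_zero, ← map_sub]
    exact h7
  refine ⟨κ, inferInstance, inferInstance, inferInstance, rd, fun n Q hn h2 h0 => ?_, fun g h4 Q => ?_,
    fun g h4 Q => ?_⟩
  · have k : P179W.KerV O.valuation Q := by
      rcases Q with _ | ⟨x, y, h'⟩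
      · trivial
      intro hx
      rw [d1 h' hx] at h0
      exact Point.some_ne_zero _ h0
    have vn : O.valuation (n : Qb) = 1 := by
      refine le_antisymm (by simpa using vi n) (not_lt.1 fun h1 => hn ?_)
      rw [← Int.cast_natCast, ← r0 _ (vi _), ri, Int.cast_natCast] at h1
      exact (CharP.cast_eq_zero_iff κ l n).1 h1
    have e := P014T.Lc.nsmul_le cf k n
    rw [h2, P014T.Lc.zf_zero, zero_sub, Valuation.map_neg, map_mul, vn, one_mul, sq] at e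
    refine P014T.Lc.zf_eq_zero cf k (by_contra fun z => ?_)
    exact absurd e (not_le.2 (mul_lt_of_lt_one_left (zero_lt_iff.2 ((_root_.map_ne_zero _).2 z))
      (P014T.Lc.zf_lt cf k)))
  · rcases Q with _ | ⟨x, y, h'⟩
    · exact congrArg rd (map_zero (ga g))
    have h5 : ∀ x : 𝓞 Qb, g • x - x ^ 1 ∈ P := by simpa using h4
    rw [ga_some]
    by_cases hx : O.valuation x ≤ 1
    · rw [d1 h' hx, d1 _ ((hg g 1 one_ne_zero h5 x).1.2 hx)]
      simp only [rg g 1 one_ne_zero h5 x hx, rg g 1 one_ne_zero h5 y (hy x y h'.1 hx), pow_one]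
    · rw [d2 h' hx, d2 _ fun h => hx ((hg g 1 one_ne_zero h5 x).1.1 h)]
  · rcases Q with _ | ⟨x, y, h'⟩
    · change rd (ga g 0) = Fb (rd 0)
      simp
    have h0 := hl.out.ne_zero
    rw [ga_some]
    by_cases hx : O.valuation x ≤ 1
    · rw [d1 h' hx, d1 _ ((hg g l h0 h4 x).1.2 hx), Fb, pa_some]
      simp only [rg g l h0 h4 x hx, rg g l h0 h4 y (hy x y h'.1 hx),
        FiniteField.coe_frobeniusAlgHom, ZMod.card]
    · rw [d2 h' hx, d2 _ fun h => hx ((hg g l h0 h4 x).1.1 h), map_zero]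

variable [Pp] {A B : ℤ} {l : ℕ}

theorem hg_two (hg : ¬ (l : ℤ) ∣ 2 * pp * (4 * A ^ 3 + 27 * B ^ 2)) :
    ¬ (l : ℤ) ∣ 2 * (4 * A ^ 3 + 27 * B ^ 2) := fun h =>
  hg (by rw [mul_right_comm]; exact h.mul_right _)

theorem hg_ne (hg : ¬ (l : ℤ) ∣ 2 * pp * (4 * A ^ 3 + 27 * B ^ 2)) : l ≠ pp := fun h =>
  hg (h ▸ (dvd_mul_left _ _).mul_right _)

theorem hg_of (hl : l.Prime) (h : ¬ (l : ℤ) ∣ 2 * (4 * A ^ 3 + 27 * B ^ 2)) (k : l ≠ pp) :
    ¬ (l : ℤ) ∣ 2 * pp * (4 * A ^ 3 + 27 * B ^ 2) := fun e => by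
  rw [mul_right_comm] at e
  exact ((Nat.prime_iff_prime_int.1 hl).dvd_or_dvd e).elim h fun e =>
    k ((Nat.prime_dvd_prime_iff_eq hl pp_prime).1 (Int.natCast_dvd_natCast.1 e))

/-- **reduction at a good prime** -/
theorem exists_rd [hl : Fact l.Prime]
    (hD : ¬ (l : ℤ) ∣ 2 * pp * (4 * A ^ 3 + 27 * B ^ 2)) {P : Ideal (𝓞 Qb)} (hP : P.IsPrime)
    (h : (l : 𝓞 Qb) ∈ P) : ∃ (κ : Type) (_ : Field κ) (_ : IsAlgClosed κ) (_ : Algebra (ZMod l) κ)
      (rd : Pt A B →+ (Cv κ (A : ZMod l) (B : ZMod l)).Point),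
      (∀ Q, pp • Q = 0 → rd Q = 0 → Q = 0) ∧
      (∀ g : GQ, (∀ x : 𝓞 Qb, g • x - x ∈ P) → ∀ Q, rd (ga g Q) = rd Q) ∧
      ∀ g : GQ, (∀ x : 𝓞 Qb, g • x - x ^ l ∈ P) → ∀ Q, rd (ga g Q) = Fb (rd Q) := by
  obtain ⟨κ, _, _, _, rd, h1, h2⟩ := exists_rdn (hg_two hD) hP h
  exact ⟨κ, _, inferInstance, _, rd, fun Q => h1 pp Q fun e =>
    hg_ne hD ((Nat.prime_dvd_prime_iff_eq hl.out pp_prime).1 e), h2⟩

end Vale.Agent.P014U.X4M.TE
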