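import Vale.Agent.P014U.Base

/-!
# Congruences and a prime count for the irreducibility of the Tate module (helper58)
-/

set_option linter.all false

noncomputable section

namespace Vale.Agent.P014U.X4M.TE.Ln

open Polynomial

theorem tay {R : Type*} [CommRing R] (x : R) (k : ℕ) : ∃ Q : R[X], ∀ h,
    2 * x ^ 2 * (x + h) ^ k =
      x ^ k * (2 * x ^ 2 + 2 * k * x * h + k * (k - 1) * h ^ 2) + h ^ 3 * Q.eval h := by
  induction k with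
  | zero => exact ⟨0, fun h => by simp⟩
  | succ k ih =>
    obtain ⟨Q, e⟩ := ih
    refine ⟨C (x ^ k * k * (k - 1)) + (C x + X) * Q, fun h => ?_⟩
    simp only [eval_add, eval_mul, eval_C, eval_X]
    push_cast
    linear_combination (x + h) * e h

variable [Pp]

theorem pr : Prime (pp : ℤ_[pp]) := PadicInt.prime_p

theorem nd_nat {k : ℕ} (h : ¬ pp ∣ k) : ¬ (pp : ℤ_[pp]) ∣ k := fun e => h (by
  have := (PadicInt.pow_p_dvd_int_iff (p := pp) 1 (k : ℤ)).1 (by simpa using e)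
  exact Int.natCast_dvd_natCast.1 (by simpa using this))

theorem nd_two : ¬ (pp : ℤ_[pp]) ∣ 2 := by simpa using nd_nat not_dvd_two

theorem nd_pred : ¬ pp ∣ pp - 1 := fun h =>
  absurd (Nat.le_of_dvd (by have := one_lt; omega) h) (by have := one_lt; omega)

theorem canc {h y : ℤ_[pp]} {K m : ℕ} (d : h ∣ (pp : ℤ_[pp]) ^ K)
    (e : (pp : ℤ_[pp]) ^ (K + m) ∣ h * y) : (pp : ℤ_[pp]) ^ m ∣ y := by
  obtain ⟨c, hc⟩ := d
  refine (mul_dvd_mul_iff_left (pow_ne_zero K pr.ne_zero)).1 ?_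
  rw [← pow_add]
  refine e.trans ⟨c, ?_⟩
  rw [hc]; ring

theorem int_zero {h : ℤ} {K : ℕ} (l : |h| < pp ^ K) (d : (pp : ℤ_[pp]) ^ K ∣ h) : h = 0 :=
  Int.eq_zero_of_abs_lt_dvd ((PadicInt.pow_p_dvd_int_iff K h).1 d) l

theorem int_dvd {h : ℤ} {K : ℕ} (h0 : h ≠ 0) (l : |h| < pp ^ K) :
    (h : ℤ_[pp]) ∣ (pp : ℤ_[pp]) ^ K :=
  (ValuationRing.dvd_total _ _).resolve_right fun d => h0 (int_zero l d)

/-- three close roots -/
theorem three {α β h₁ h₂ : ℤ_[pp]} {s n K : ℕ} (hx : ¬ (pp : ℤ_[pp]) ∣ α * β)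
    (d1 : (pp : ℤ_[pp]) ^ n ∣ h₁) (d2 : (pp : ℤ_[pp]) ^ n ∣ h₂) (k1 : h₁ ∣ (pp : ℤ_[pp]) ^ K)
    (k2 : h₂ ∣ (pp : ℤ_[pp]) ^ K) (k3 : h₁ - h₂ ∣ (pp : ℤ_[pp]) ^ K)
    (e : ∀ h, h = h₁ ∨ h = h₂ → (pp : ℤ_[pp]) ^ (K + (K + n)) ∣ (α * (α * β) ^ s) ^ 2 -
      (α + β) * (α * (α * β) ^ s) * (α * β + h) ^ s + (α * β + h) ^ (2 * s + 1)) :
    (pp : ℤ_[pp]) ^ n ∣ 2 * s + 1 := by
  obtain ⟨Q, a⟩ := tay (α * β) s
  obtain ⟨R, b⟩ := tay (α * β) (2 * s + 1)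
  have ha : ¬ (pp : ℤ_[pp]) ∣ α := fun d => hx (d.mul_right _)
  have hb : ¬ (pp : ℤ_[pp]) ∣ β := fun d => hx (d.mul_left _)
  have hy : ¬ (pp : ℤ_[pp]) ∣ (α * β) ^ s := fun d => hx (pr.dvd_of_dvd_pow d)
  generalize hy' : (α * β) ^ s = y at *
  set r₁ : ℤ_[pp] := β * (s + 1) - α * s
  set r₂ : ℤ_[pp] := (2 * s + 1) * (2 * s) * β - (α + β) * s * (s - 1)
  set T : ℤ_[pp][X] := R - C ((α + β) * (α * y)) * Q
  have e' : ∀ h, h = h₁ ∨ h = h₂ → h ∣ (pp : ℤ_[pp]) ^ K → (pp : ℤ_[pp]) ^ (K + n) ∣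
      2 * (α * β) * y ^ 2 * α * r₁ + y ^ 2 * α * r₂ * h + h ^ 2 * T.eval h := fun h m d => by
    refine canc d (((e h m).mul_left (2 * (α * β) ^ 2)).trans (dvd_of_eq (Eq.symm ?_)))
    have a := a h
    have b := b h
    rw [pow_succ (α * β) (2 * s), mul_comm 2 s, pow_mul, hy', mul_comm s 2] at b
    simp only [T, r₁, r₂, eval_sub, eval_mul, eval_C]
    push_cast at b
    linear_combination (α + β) * (α * y) * a - b
  have e1 := e' _ (Or.inl rfl) k1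
  have e2 := e' _ (Or.inr rfl) k2
  obtain ⟨D, hD⟩ := sub_dvd_eval_sub h₁ h₂ T
  have e3 : (pp : ℤ_[pp]) ^ n ∣ y ^ 2 * α * r₂ + ((h₁ + h₂) * T.eval h₁ + h₂ ^ 2 * D) := by
    refine canc k3 ?_
    have := dvd_sub e1 e2
    rwa [show _ - _ = (h₁ - h₂) * (y ^ 2 * α * r₂ + ((h₁ + h₂) * T.eval h₁ + h₂ ^ 2 * D)) by
      linear_combination h₂ ^ 2 * hD] at this
  have nd : ¬ (pp : ℤ_[pp]) ∣ y ^ 2 * α := fun d =>
    (pr.dvd_or_dvd d).elim (fun d => hy (pr.dvd_of_dvd_pow d)) ha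
  have f2 : (pp : ℤ_[pp]) ^ n ∣ r₂ := pr.pow_dvd_of_dvd_mul_left n nd
    ((dvd_add_left (dvd_add ((dvd_add d1 d2).mul_right _)
      ((d2.trans (dvd_pow_self _ two_ne_zero)).mul_right _))).1 e3)
  have f1 : (pp : ℤ_[pp]) ^ n ∣ r₁ := by
    have := (pow_dvd_pow _ (Nat.le_add_left n K)).trans e1
    rw [dvd_add_left ((d1.trans (dvd_pow_self _ two_ne_zero)).mul_right _),
      dvd_add_left (d1.mul_left _), mul_assoc _ _ α] at this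
    exact pr.pow_dvd_of_dvd_mul_left n (fun d => (pr.dvd_or_dvd d).elim
      (fun d => (pr.dvd_or_dvd d).elim nd_two hx) nd) this
  have g1 : (pp : ℤ_[pp]) ^ n ∣ β * ((2 * s + 1) * (s + 1)) := by
    have := dvd_sub f2 (f1.mul_left (s - 1))
    rwa [show _ - _ = β * ((2 * s + 1) * (s + 1)) by simp only [r₁, r₂]; ring] at this
  have g2 : (pp : ℤ_[pp]) ^ n ∣ α * ((2 * s + 1) * s) := by
    have := dvd_sub g1 (f1.mul_left (2 * s + 1))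
    rwa [show _ - _ = α * ((2 * s + 1) * s) by simp only [r₁]; ring] at this
  have := dvd_sub (pr.pow_dvd_of_dvd_mul_left n hb g1) (pr.pow_dvd_of_dvd_mul_left n ha g2)
  rwa [show _ - _ = (2 * s + 1 : ℤ_[pp]) by ring] at this

theorem root {y z : ℤ_[pp]} {k M : ℕ} (hy : ¬ (pp : ℤ_[pp]) ∣ y) (hk : ¬ pp ∣ k)
    (h : (pp : ℤ_[pp]) ∣ y - z) (e : (pp : ℤ_[pp]) ^ M ∣ y ^ k - z ^ k) :
    (pp : ℤ_[pp]) ^ M ∣ y - z :=
  pr.pow_dvd_of_dvd_mul_left M (not_dvd_geom_sum₂ pr h hy (nd_nat hk)) (by rwa [geom_sum₂_mul])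

theorem nd_one {y : ℤ_[pp]} (h : (pp : ℤ_[pp]) ∣ y - 1) : ¬ (pp : ℤ_[pp]) ∣ y := fun d =>
  pr.not_dvd_one (by simpa using dvd_sub d h)

theorem pw0 (x : ℤ_[pp]) (n e : ℕ) :
    ∃ w, (1 + pp ^ (n + 1) * x) ^ pp ^ e = 1 + pp ^ e * pp ^ (n + 1) * (x + pp * w) :=
  ZMod.exists_one_add_mul_pow_prime_pow_eq pp_prime (dvd_pow_self _ n.succ_ne_zero) (by
    rw [← pow_mul, ← pow_succ', ← pow_succ]
    exact pow_dvd_pow _ (by have := two_lt; nlinarith)) x e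

theorem pw (x : ℤ_[pp]) (n t : ℕ) :
    ∃ w, (1 + pp * x) ^ (pp ^ n * t) = 1 + pp ^ (n + 1) * (t * x + pp * w) := by
  obtain ⟨w, e⟩ := pw0 x 0 n
  obtain ⟨v, f⟩ := sq_dvd_add_pow_sub_sub (pp ^ n * pp ^ (0 + 1) * (x + pp * w) : ℤ_[pp]) 1 t
  rw [← e, zero_add, pow_one, ← pow_mul] at f
  exact ⟨t * w + pp ^ n * (x + pp * w) ^ 2 * v, by linear_combination f⟩

/-- no torsion -/
theorem tf {y : ℤ_[pp]} {k : ℕ} (h : (pp : ℤ_[pp]) ∣ y - 1) (k0 : k ≠ 0)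
    (e : ∀ N, ∃ m, ¬ pp ∣ m ∧ (pp : ℤ_[pp]) ^ N ∣ y ^ (k * m) - 1) (n : ℕ) :
    (pp : ℤ_[pp]) ^ (n + 1) ∣ y - 1 := by
  obtain ⟨j, k', hk, rfl⟩ := Nat.exists_eq_pow_mul_and_not_dvd k0 pp pp_prime.ne_one
  induction n with
  | zero => rwa [zero_add, pow_one]
  | succ n ih =>
    obtain ⟨x, hx⟩ := ih
    obtain ⟨w, f⟩ := pw0 x n j
    rw [← hx, add_sub_cancel] at f
    obtain ⟨m, hm, d⟩ := e (j + (n + 1) + 1)
    have h1 : (pp : ℤ_[pp]) ∣ y ^ pp ^ j - 1 := h.trans (sub_one_dvd_pow_sub_one _ _)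
    have := root (z := 1) (M := j + (n + 1) + 1) (nd_one h1)
      (fun d => (pp_prime.dvd_mul.1 d).elim hk hm) h1 (by rwa [← pow_mul, one_pow, ← mul_assoc])
    rw [f, add_sub_cancel_left, ← pow_add, pow_succ,
      mul_dvd_mul_iff_left (pow_ne_zero _ pr.ne_zero), dvd_add_left (dvd_mul_right _ _)] at this
    rw [hx, pow_succ _ (n + 1)]
    exact mul_dvd_mul_left _ this

open Real in
/-- many primes -/
theorem many (C m : ℕ) : ∃ n, m ≤ n ∧ C * pp ^ n < Nat.primeCounting ((pp ^ n) ^ 2) := by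
  obtain ⟨n, h1, h2, h3⟩ : ∃ n, m ≤ n ∧ 5 ≤ n ∧ 2 * (2 * pp * C + 2 * pp + 1) ≤ n :=
    ⟨m + 5 + 2 * (2 * pp * C + 2 * pp + 1), by omega, by omega, by omega⟩
  refine ⟨n, h1, not_le.1 fun h => ?_⟩
  have k1 : n ^ 2 < pp ^ n := by
    refine lt_of_lt_of_le ?_ (Nat.pow_le_pow_left pp_prime.two_le n)
    clear h1 h3 h
    induction n, h2 using Nat.le_induction with
    | base => norm_num
    | succ n h ih => rw [pow_succ 2]; nlinarith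
  have k2 := (Chebyshev.psi_ge ((pp ^ n) ^ 2)).trans (Chebyshev.psi_le_primeCounting_mul_log _)
  have p0 : (0 : ℝ) < pp := Nat.cast_pos.2 pp_pos
  have k3 : log ((pp ^ n) ^ 2 : ℕ) ≤ 2 * (n * pp) := by
    push_cast
    rw [log_pow, log_pow]
    have := log_le_sub_one_of_pos p0
    push_cast
    gcongr
    linarith
  have K1 : (1 : ℝ) ≤ (pp ^ n : ℕ) := Nat.one_le_cast.2 (pow_pos pp_pos n)
  have k4 : log (((pp ^ n) ^ 2 : ℕ) + 1) ≤ 1 + 2 * (n * pp) := by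
    have X1 : (1 : ℝ) ≤ ((pp ^ n) ^ 2 : ℕ) := Nat.one_le_cast.2 (pow_pos (pow_pos pp_pos n) 2)
    refine (log_le_log (by positivity) (show _ ≤ 2 * (((pp ^ n) ^ 2 : ℕ) : ℝ) by linarith)).trans ?_
    rw [log_mul two_ne_zero (by linarith)]
    linarith [log_two_lt_d9]
  have k5 : (Nat.primeCounting ((pp ^ n) ^ 2) : ℝ) * log ((pp ^ n) ^ 2 : ℕ) ≤
      C * (pp ^ n : ℕ) * (2 * (n * pp)) :=
    mul_le_mul (by exact_mod_cast h) k3 (log_natCast_nonneg _) (by positivity)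
  have k6 : (n : ℝ) ^ 2 < (pp ^ n : ℕ) := by exact_mod_cast k1
  have k7 : (2 : ℝ) * (2 * pp * C + 2 * pp + 1) ≤ n := by exact_mod_cast h3
  have k8 : (5 : ℝ) ≤ n := by exact_mod_cast h2
  rw [Nat.cast_pow] at k2 k4 k5
  generalize ((pp ^ n : ℕ) : ℝ) = K at *
  have k9 : K ^ 2 * (1 / 2) ≤ K ^ 2 * log 2 := by gcongr; linarith [log_two_gt_d9]
  have l1 : 1 + 2 * ((n : ℝ) * pp) ≤ K * (n * (2 * pp + 1)) :=
    le_trans (by nlinarith) (le_mul_of_one_le_left (by positivity) K1)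
  have l2 : K * ((n : ℝ) * (2 * (2 * pp * C + 2 * pp + 1))) ≤ K * (n * n) := by gcongr
  nlinarith

end Vale.Agent.P014U.X4M.TE.Ln
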