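import Vale.Agent.P014U.X4M.TE.Ari
import Vale.Agent.P014U.Mu.Eis0

/-!
# No character of `G_ℚ` is an eigenvalue of Weil type at almost all primes (helper58)
-/

set_option linter.all false

noncomputable section

namespace Vale.Agent.P014U.X4M.TE.Ln

open NumberField
open Vale.Agent.P022 (Qb GQ IsFrob)
open Vale.Agent.P022.H443 (inP)
open Vale.Agent.P022E.GW (Ov Fb Op)
open Vale.Agent.P004S (Un)
open Vale.Agent.P014U.Mu.Ei (Co kw)
open PadicInt (toZMod)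

variable [Pp] {ψ χ c : GQ →* ℤ_[pp]}

theorem inv_mul (ψ : GQ →* ℤ_[pp]) (g : GQ) : ψ g⁻¹ * ψ g = 1 := by
  rw [← map_mul, inv_mul_cancel, map_one]

theorem nd (ψ : GQ →* ℤ_[pp]) (g : GQ) : ¬ (pp : ℤ_[pp]) ∣ ψ g := fun d =>
  pr.not_dvd_one (inv_mul ψ g ▸ d.mul_left _)

theorem cj (ψ : GQ →* ℤ_[pp]) (g j : GQ) : ψ (g * j * g⁻¹) = ψ j := by
  rw [map_mul, map_mul]; linear_combination ψ j * inv_mul ψ g

/-- the kernel modulo a power -/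
def Kn (ψ : GQ →* ℤ_[pp]) (n : ℕ) : Subgroup GQ where
  carrier := {g | (pp : ℤ_[pp]) ^ n ∣ ψ g - 1}
  mul_mem' {a b} ha hb := by
    have := dvd_add (Dvd.dvd.mul_left hb (ψ a)) ha
    rwa [show _ + _ = ψ (a * b) - 1 by rw [map_mul]; ring] at this
  one_mem' := by simp
  inv_mem' {a} ha := by
    have := Dvd.dvd.mul_left ha (-ψ a⁻¹)
    rwa [show _ * _ = ψ a⁻¹ - 1 by linear_combination -inv_mul ψ a] at this

theorem mem_kn {n : ℕ} {g : GQ} : g ∈ Kn ψ n ↔ (pp : ℤ_[pp]) ^ n ∣ ψ g - 1 := Iff.rfl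

theorem kn_nor (n : ℕ) : (Kn ψ n).Normal := ⟨fun j m g => by rwa [mem_kn, cj]⟩

theorem kn_opn (h : Continuous ψ) (n : ℕ) : IsOpen (Kn ψ n : Set GQ) := by
  have := (IsUltrametricDist.isOpen_closedBall (0 : ℤ_[pp]) (r := (pp : ℝ) ^ (-n : ℤ))
    (zpow_ne_zero _ (Nat.cast_ne_zero.2 pp_ne))).preimage (h.sub continuous_const (g := fun _ => 1))
  rwa [show _ ⁻¹' _ = (Kn ψ n : Set GQ) from Set.ext fun g => by
    rw [Set.mem_preimage, mem_closedBall_zero_iff, PadicInt.norm_le_pow_iff_mem_span_pow,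
      Ideal.mem_span_singleton]; rfl] at this

theorem tz {x : ℤ_[pp]} : toZMod x = 0 ↔ (pp : ℤ_[pp]) ∣ x := by
  rw [← RingHom.mem_ker, PadicInt.ker_toZMod, PadicInt.maximalIdeal_eq_span_p,
    Ideal.mem_span_singleton]

theorem fer {y : ℤ_[pp]} (h : ¬ (pp : ℤ_[pp]) ∣ y) : (pp : ℤ_[pp]) ∣ y ^ (pp - 1) - 1 :=
  tz.1 (by rw [map_sub, map_pow, map_one, ZMod.pow_card_sub_one_eq_one (mt tz.1 h), sub_self])

theorem unr (h : Continuous ψ) (h1 : ∀ g, (pp : ℤ_[pp]) ∣ ψ g - 1) {l : ℕ} {P : Ideal (𝓞 Qb)}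
    (o : Ov l P) (hl : l ≠ pp) {j : GQ} (hj : j ∈ inP P) (n : ℕ) : j ∈ Kn ψ (n + 1) := by
  obtain ⟨σ, hσ⟩ := P022D.W.exists_phi o.1 o.2.1 o.2.2
  refine inv_mem_iff.1 (tf (k := l - 1) (h1 _) (by have := o.1.two_le; omega) (fun N => ?_) n)
  obtain ⟨m, hm⟩ := P004F.En.wd_frob o hσ hj (Kn ψ N) (kn_nor N) (kn_opn h N)
  refine ⟨l ^ m, fun d => hl ((Nat.prime_dvd_prime_iff_eq pp_prime o.1).1
    (pp_prime.dvd_of_dvd_pow d)).symm, ?_⟩
  have e : ψ (σ * j * σ⁻¹ * (j ^ l)⁻¹) = ψ j⁻¹ ^ (l - 1) := by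
    obtain ⟨k, rfl⟩ := Nat.exists_eq_succ_of_ne_zero o.1.ne_zero
    rw [map_mul, cj, ← inv_pow, map_pow, pow_succ, Nat.succ_sub_one]
    linear_combination ψ j⁻¹ ^ k * inv_mul ψ j
  rwa [pow_mul, ← e, ← map_pow]

theorem dig (h : Continuous ψ) {n : ℕ} (h1 : ∀ g, (pp : ℤ_[pp]) ^ (n + 1) ∣ ψ g - 1) :
    ∃ r : GQ → ℤ_[pp], (∀ g, ψ g = 1 + pp ^ (n + 1) * r g) ∧ Co 1 (fun g => toZMod (r g)) ∧
      Un (· ≠ pp) fun g => toZMod (r g) := by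
  choose r hr using h1
  have p0 : (pp : ℤ_[pp]) ^ (n + 1) ≠ 0 := pow_ne_zero _ pr.ne_zero
  have k : ∀ g ∈ Kn ψ (n + 1 + 1), toZMod (r g) = 0 := fun g m => by
    have : _ ∣ ψ g - 1 := m
    rwa [hr, pow_succ, mul_dvd_mul_iff_left p0, ← tz] at this
  refine ⟨r, fun g => by rw [← hr, add_sub_cancel], ⟨fun g j => ?_, _, kn_opn h _, k⟩,
    fun l P o hl g i => k g (unr h (fun g => (dvd_pow_self _ n.succ_ne_zero).trans ⟨_, hr g⟩)
      o hl i _)⟩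
  have : r (g * j) = r g + r j + pp * (pp ^ n * r g * r j) := mul_left_cancel₀ p0 (by
    have := hr (g * j)
    rw [map_mul] at this
    linear_combination (ψ j) * hr g - this + (1 + pp ^ (n + 1) * r g) * hr j)
  rw [this, map_add, tz.2 (dvd_mul_right _ _), add_zero, map_add, Pi.one_apply, one_mul]

theorem expo (hχ : Continuous χ) (hc : Continuous c) (h1 : ∀ g, (pp : ℤ_[pp]) ∣ χ g - 1)
    (h2 : ∀ g, (pp : ℤ_[pp]) ∣ c g - 1) {γ : GQ} (h3 : ¬ (pp : ℤ_[pp]) ^ 2 ∣ c γ - 1) (n : ℕ) :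
    ∃ s : ℕ, ∀ g, (pp : ℤ_[pp]) ^ (n + 1) ∣ χ g * c g ^ s - 1 := by
  induction n with
  | zero => exact ⟨0, fun g => by simpa using h1 g⟩
  | succ n ih =>
    obtain ⟨s, hs⟩ := ih
    obtain ⟨κ, -, -, k⟩ := kw
    obtain ⟨r, r1, r2, r3⟩ := dig (ψ := χ * c ^ s) (hχ.mul (hc.pow s)) hs
    obtain ⟨u, u1, u2, u3⟩ := dig (n := 0) hc fun g => by simpa using h2 g
    obtain ⟨a, ha⟩ := k _ r2 r3
    obtain ⟨b, hb⟩ := k _ u2 u3
    have b0 : b ≠ 0 := fun e => h3 (by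
      rw [u1, add_sub_cancel_left, zero_add, pow_one, sq]
      exact mul_dvd_mul_left _ (tz.1 ((hb γ).trans (by rw [e, zero_mul]))))
    refine ⟨s + pp ^ n * (-a / b).val, fun g => ?_⟩
    obtain ⟨w, hw⟩ := pw (u g) n (-a / b).val
    obtain ⟨v, hv⟩ : (pp : ℤ_[pp]) ∣ r g + (-a / b).val * u g := tz.1 (by
      rw [map_add, map_mul, map_natCast, ZMod.natCast_zmod_val, ha, hb]; field_simp; ring)
    have e := u1 g
    rw [zero_add, pow_one] at e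
    have f : χ g * c g ^ s = _ := r1 g
    rw [pow_add (c g), ← mul_assoc, f, e, hw]
    exact ⟨v + w + pp ^ n * r g * ((-a / b).val * u g + pp * w), by
      linear_combination (pp : ℤ_[pp]) ^ (n + 1) * hv⟩

theorem no_chr (hχ : Continuous χ) (hc : Continuous c) (S : Finset ℕ)
    (H : ∀ l φ, l.Prime → l ∉ S → IsFrob l φ →
      c φ = l ∧ ∃ a : ℤ, a ^ 2 ≤ 4 * l ∧ χ φ ^ 2 - a * χ φ + l = 0) : False := by
  have fr0 : ∀ l : ℕ, ∃ φ, l.Prime → IsFrob l φ := fun l => by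
    by_cases h : l.Prime
    · exact (P022.H20.exists_isFrob h).imp fun _ a _ => a
    · exact ⟨1, fun a => (h a).elim⟩
  choose fr hfr using fr0
  obtain ⟨q, q1, q2, q3⟩ := Nat.forall_exists_prime_gt_and_modEq (S.sup id) (a := 1 + pp)
    (pow_ne_zero 2 pp_ne) (Nat.Coprime.pow_right 2 (by simp))
  have h3 : ¬ (pp : ℤ_[pp]) ^ 2 ∣ (c ^ (pp - 1)) (fr q) - 1 := fun d => by
    rw [MonoidHom.pow_apply, (H q _ q2 (fun m => q1.not_ge (Finset.le_sup (f := id) m))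
      (hfr q q2)).1] at d
    obtain ⟨w, hw⟩ := pw 1 0 (pp - 1)
    have e : (pp : ℤ_[pp]) ^ 2 ∣ q - (1 + pp) := by
      have := (PadicInt.pow_p_dvd_int_iff (p := pp) 2 _).2 (by exact_mod_cast q3.symm.dvd)
      exact_mod_cast this
    have := dvd_sub d (e.trans (sub_dvd_pow_sub_pow _ _ (pp - 1)))
    rw [pow_zero, one_mul, mul_one, mul_one, zero_add, pow_one] at hw
    rw [hw, sub_sub_sub_cancel_left, add_sub_cancel_left, sq, mul_dvd_mul_iff_left pr.ne_zero,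
      dvd_add_left (dvd_mul_right _ _)] at this
    exact nd_nat nd_pred this
  obtain ⟨l₁, φ, a1, a2, a3, a4⟩ := P022K.Cheb.exists_fr ((kn_opn hχ 1).inter (kn_opn hc 1))
    ⟨one_mem _, one_mem _⟩ S
  obtain ⟨b1, a₁, -, b2⟩ := H l₁ φ a1 a2 a3
  have D0 : a₁ ^ 2 - 4 * l₁ ≠ 0 := fun e => by
    obtain ⟨b, rfl⟩ : 2 ∣ a₁ := Int.prime_two.dvd_of_dvd_pow (n := 2) ⟨2 * l₁, by linear_combination e⟩
    exact a1.prime.not_isSquare ⟨b.natAbs, by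
      rw [← Int.natAbs_mul, show b * b = l₁ by linarith, Int.natAbs_natCast]⟩
  obtain ⟨n, n1, n2⟩ := many (2 * pp ^ 3 + S.card) (a₁ ^ 2 - 4 * l₁).natAbs
  obtain ⟨s, hs⟩ := expo (χ := χ ^ (pp - 1)) (c := c ^ (pp - 1)) (hχ.pow _) (hc.pow _)
    (fun g => fer (nd χ g)) (fun g => fer (nd c g)) h3 (2 * n + (2 * n + (n + 2)))
  simp only [MonoidHom.pow_apply] at hs
  have H' : ∀ l : ℕ, ∃ a : ℤ, l ∈ Nat.primesLE ((pp ^ n) ^ 2) \ S → 0 < l ∧ l ≤ (pp ^ n) ^ 2 ∧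
      c (fr l) = l ∧ |a| ≤ 2 * pp ^ n ∧ χ (fr l) ^ 2 - a * χ (fr l) + l = 0 := fun l => by
    by_cases m : l ∈ Nat.primesLE ((pp ^ n) ^ 2) \ S
    · obtain ⟨m1, m2⟩ := Finset.mem_sdiff.1 m
      obtain ⟨m3, m4⟩ := Nat.mem_primesLE.1 m1
      obtain ⟨c1, a, c2, c3⟩ := H l _ m4 m2 (hfr l m4)
      refine ⟨a, fun _ => ⟨m4.pos, m3, c1, abs_le_of_sq_le_sq' ?_ (by positivity) |> abs_le.2, c3⟩⟩
      have : (l : ℤ) ≤ (pp ^ n) ^ 2 := by exact_mod_cast m3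
      linarith
    · exact ⟨0, fun a => (m a).elim⟩
  choose a ha using H'
  obtain ⟨y, -, hy⟩ := Finset.exists_lt_card_fiber_of_mul_lt_card_of_maps_to
    (s := Nat.primesLE ((pp ^ n) ^ 2) \ S) (t := Finset.univ) (n := 2)
    (f := fun l => ((l : ZMod (pp ^ (n + 2))), toZMod (χ (fr l)))) (fun _ _ => Finset.mem_univ _) (by
      have := Finset.le_card_sdiff S (Nat.primesLE ((pp ^ n) ^ 2))
      have k : S.card ≤ S.card * pp ^ n := Nat.le_mul_of_pos_right _ (pow_pos pp_pos n)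
      rw [Nat.primesLE_card_eq_primeCounting] at this
      rw [Finset.card_univ, Fintype.card_prod, ZMod.card, ZMod.card,
        show pp ^ (n + 2) * pp * 2 = 2 * pp ^ 3 * pp ^ n by ring]
      rw [add_mul] at n2
      omega)
  obtain ⟨l₀, m0, l, m1, l', m2, n01, n02, n12⟩ := Finset.two_lt_card.1 hy
  rw [Finset.mem_filter] at m0 m1 m2
  obtain ⟨p0, q0, c0, t0, e0⟩ := ha l₀ m0.1
  have x0 : χ (fr l₀) * (a l₀ - χ (fr l₀)) = l₀ := by linear_combination -e0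
  have key : ∀ l ∈ Nat.primesLE ((pp ^ n) ^ 2) \ S,
      ((l : ZMod (pp ^ (n + 2))), toZMod (χ (fr l))) = y →
      (pp : ℤ_[pp]) ^ (n + 2) ∣ l - l₀ ∧ (pp : ℤ_[pp]) ^ (2 * n + (2 * n + (n + 2))) ∣
        (χ (fr l₀) * l₀ ^ s) ^ 2 - a l₀ * (χ (fr l₀) * l₀ ^ s) * l ^ s + l ^ (2 * s + 1) := by
    intro l m e
    obtain ⟨p1, q1, c1, t1, e1⟩ := ha l m
    obtain ⟨f1, f2⟩ := Prod.ext_iff.1 (m0.2.trans e.symm)
    have g1 : (pp : ℤ_[pp]) ^ (n + 2) ∣ l - l₀ := by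
      have := (PadicInt.pow_p_dvd_int_iff (p := pp) (n + 2) _).2 (by
        exact_mod_cast ((ZMod.natCast_eq_natCast_iff _ _ _).1 f1).dvd)
      exact_mod_cast this
    have g2 : (pp : ℤ_[pp]) ∣ χ (fr l₀) - χ (fr l) := tz.1 (by rw [map_sub, sub_eq_zero]; exact f2)
    have g3 : (pp : ℤ_[pp]) ^ (n + 2) ∣ l ^ s - l₀ ^ s := g1.trans (sub_dvd_pow_sub_pow _ _ s)
    have g4 : ¬ (pp : ℤ_[pp]) ∣ l₀ ^ s := fun d => nd c _ (c0 ▸ pr.dvd_of_dvd_pow d)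
    have g5 : (pp : ℤ_[pp]) ^ (2 * n + (2 * n + (n + 2))) ∣
        χ (fr l₀) * l₀ ^ s - χ (fr l) * l ^ s := by
      refine root (fun d => (pr.dvd_or_dvd d).elim (nd χ _) g4) nd_pred ?_ ?_
      · have := dvd_sub (g2.mul_right (l₀ ^ s))
          (((dvd_pow_self _ (n + 1).succ_ne_zero).trans g3).mul_left (χ (fr l)))
        rwa [show _ - _ = χ (fr l₀) * l₀ ^ s - χ (fr l) * l ^ s by ring] at this
      · have := (pow_dvd_pow _ (Nat.le_succ _)).trans (dvd_sub (hs (fr l₀)) (hs (fr l)))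
        rwa [c0, c1, sub_sub_sub_cancel_right, ← pow_mul, ← pow_mul, mul_comm _ s, pow_mul, pow_mul,
          ← mul_pow, ← mul_pow] at this
    have g6 : (pp : ℤ_[pp]) ^ (n + 2) ∣ χ (fr l₀) - χ (fr l) := by
      refine pr.pow_dvd_of_dvd_mul_left _ g4 ?_
      have := dvd_add ((pow_dvd_pow _ (by omega : n + 2 ≤ _)).trans g5) (g3.mul_left (χ (fr l)))
      rwa [show _ + _ = l₀ ^ s * (χ (fr l₀) - χ (fr l)) by ring] at this
    have g7 : a l₀ = a l := sub_eq_zero.1 (int_zero (K := n + 2) (by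
      have := abs_sub (a l₀) (a l)
      have k : (3 : ℤ) ≤ pp := by exact_mod_cast two_lt
      have k' : (0 : ℤ) < pp ^ n := by positivity
      rw [pow_add]
      nlinarith [mul_le_mul k k (by norm_num) (by linarith)]) (by
      refine pr.pow_dvd_of_dvd_mul_left _ (nd χ (fr l)) ?_
      have := dvd_sub (g6.mul_left (χ (fr l₀) + χ (fr l) - a l₀)) g1
      rwa [show _ - _ = χ (fr l) * ((a l₀ - a l : ℤ) : ℤ_[pp]) by
        push_cast; linear_combination e0 - e1] at this))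
    refine ⟨g1, (g5.mul_left (χ (fr l₀) * l₀ ^ s + χ (fr l) * l ^ s - a l₀ * l ^ s)).trans
      (dvd_of_eq ?_)⟩
    rw [g7]
    linear_combination -(l : ℤ_[pp]) ^ (2 * s) * e1
  have dv : ∀ u ∈ Nat.primesLE ((pp ^ n) ^ 2) \ S, ∀ v ∈ Nat.primesLE ((pp ^ n) ^ 2) \ S, u ≠ v →
      (u - v : ℤ_[pp]) ∣ (pp : ℤ_[pp]) ^ (2 * n) := fun u hu v hv e => by
    obtain ⟨u1, u2, -⟩ := ha u hu
    obtain ⟨v1, v2, -⟩ := ha v hv
    have := int_dvd (h := u - v) (K := 2 * n) (sub_ne_zero.2 (by exact_mod_cast e)) (by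
      rw [← pow_mul, mul_comm] at u2 v2
      have : ((pp ^ (2 * n) : ℕ) : ℤ) = pp ^ (2 * n) := by push_cast; rfl
      rw [← this, abs_lt]
      omega)
    exact_mod_cast this
  obtain ⟨k1, k2⟩ := key l m1.1 m1.2
  obtain ⟨k3, k4⟩ := key l' m2.1 m2.2
  have k5 := three (α := χ (fr l₀)) (β := a l₀ - χ (fr l₀)) (s := s) (by rw [x0, ← c0]; exact nd c _)
    k1 k3 (dv _ m1.1 _ m0.1 n01.symm) (dv _ m2.1 _ m0.1 n02.symm)
    (by rw [sub_sub_sub_cancel_right]; exact dv _ m1.1 _ m2.1 n12) (by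
      rintro h (rfl | rfl) <;> rwa [x0, add_sub_cancel, add_sub_cancel])
  obtain ⟨t, ht⟩ : pp ^ (n + 2) ∣ 2 * s + 1 := by
    have := (PadicInt.pow_p_dvd_int_iff (p := pp) (n + 2) (2 * s + 1 : ℕ)).1 (by exact_mod_cast k5)
    exact_mod_cast this
  obtain ⟨x, hx⟩ := fer (nd c φ)
  obtain ⟨w, hw⟩ := pw x (n + 2) t
  rw [← ht, ← hx, add_sub_cancel] at hw
  have j1 : (pp : ℤ_[pp]) ∣ χ φ - 1 := pow_one (pp : ℤ_[pp]) ▸ mem_kn.1 a4.1
  have j2 : (pp : ℤ_[pp]) ∣ c φ - 1 := pow_one (pp : ℤ_[pp]) ▸ mem_kn.1 a4.2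
  have k6 : (pp : ℤ_[pp]) ^ (n + 2) ∣ c φ - χ φ ^ 2 := by
    refine root (nd c φ) nd_pred ?_ ?_
    · have := dvd_sub j2 (j1.mul_left (χ φ + 1))
      rwa [show _ - _ = c φ - χ φ ^ 2 by ring] at this
    · have := dvd_sub (dvd_mul_right ((pp : ℤ_[pp]) ^ (n + 2))
        (pp * (t * x + pp * w) * (χ φ ^ (pp - 1)) ^ 2))
        (((pow_dvd_pow _ (by omega : n + 2 ≤ _)).trans (hs φ)).mul_left
          (c φ ^ (pp - 1) * (χ φ ^ (pp - 1) * (c φ ^ (pp - 1)) ^ s + 1)))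
      rw [← pow_mul (χ φ) 2, mul_comm 2, pow_mul]
      generalize c φ ^ (pp - 1) = u at *
      generalize χ φ ^ (pp - 1) = v at *
      rwa [show _ - _ = u - v ^ 2 by linear_combination -v ^ 2 * hw] at this
  refine D0 (int_zero (K := n + 2) ?_ (pr.pow_dvd_of_dvd_mul_left _
    (fun d => nd χ φ (pr.dvd_of_dvd_pow (n := 2) d)) ?_))
  · rw [Int.abs_eq_natAbs]
    exact_mod_cast (n1.trans (Nat.le_add_right n 2)).trans_lt (Nat.lt_pow_self one_lt)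
  · refine (k6.mul_left (c φ - χ φ ^ 2)).trans (dvd_of_eq ?_)
    rw [b1]
    push_cast
    linear_combination (χ φ ^ 2 + a₁ * χ φ + l₁) * b2

end Vale.Agent.P014U.X4M.TE.Ln
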