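import Vale.Agent.P014U.X4M.TE.Tate
import Vale.Agent.P014U.Ir.Kw

/-!
# No line of the Tate module is stable (helper58, helper6)
-/

set_option linter.all false

open scoped Classical

noncomputable section

namespace Vale.Agent.P014U.X4M.TE

variable [Pp]

open P027M.K Matrix

variable {A B : ℤ} (hD : 4 * (A : ℚ) ^ 3 + 27 * (B : ℚ) ^ 2 ≠ 0)
include hD

theorem no_line {x : Tm (A : ℚ) (B : ℚ)} (h0 : TM.cp 1 x ≠ 0)
    (h : ∀ g, ∃ c : ℤ_[pp], rho _ _ g x = c • x) : False := by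
  choose c hc using h
  have x0 : x ≠ 0 := fun k => h0 (by rw [k, map_zero])
  have inj := smul_left_injective ℤ_[pp] x0
  let χ : GQ →* ℤ_[pp] :=
    { toFun := c
      map_one' := inj (show c 1 • x = (1 : ℤ_[pp]) • x by rw [← hc, map_one, one_smul]; rfl)
      map_mul' := fun g k => inj (show c (g * k) • x = (c g * c k) • x by
        rw [← hc, map_mul, Module.End.mul_apply, hc k, map_smul, hc g, smul_smul, mul_comm]) }
  have pr : ∀ (T : ℕ) (d : ℤ_[pp]), TM.cp T (d • x) = 0 → (pp : ℤ_[pp]) ^ T ∣ d := fun T d k => by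
    obtain ⟨y, hy⟩ := TM.cp_eq_zero_iff.1 k
    obtain k | ⟨e, he⟩ := ValuationRing.dvd_total ((pp : ℤ_[pp]) ^ T) d
    · exact k
    by_cases d0 : d = 0
    · exact d0 ▸ dvd_zero _
    by_cases u : IsUnit e
    · exact he ▸ u.mul_right_dvd.2 dvd_rfl
    obtain ⟨f, rfl⟩ := (PadicInt.norm_lt_one_iff_dvd e).1 (PadicInt.mem_nonunits.1 u)
    rw [he, mul_smul, mul_smul] at hy
    exact absurd (TM.cp_eq_zero_iff.2 ⟨f • y, by rw [pow_one]; exact smul_right_injective _ d0 hy⟩) h0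
  have ev : ∀ g, mt hD g *ᵥ (bs hD).repr x = c g • ⇑((bs hD).repr x) := fun g => by
    have e1 := LinearMap.toMatrix_mulVec_repr (bs hD) (bs hD) (rho A B g) x
    rwa [hc, map_smul, Finsupp.coe_smul] at e1
  have v0 : ∀ d : ℤ_[pp], d * (bs hD).repr x 0 = 0 → d * (bs hD).repr x 1 = 0 → d = 0 :=
    fun d a b => by_contra fun k => x0 ((bs hD).repr.injective (by
      rw [map_zero]
      ext i
      fin_cases i
      exacts [(mul_eq_zero.1 a).resolve_left k, (mul_eq_zero.1 b).resolve_left k]))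
  have d0 : (2 * pp * (4 * A ^ 3 + 27 * B ^ 2) : ℤ) ≠ 0 :=
    mul_ne_zero (mul_ne_zero two_ne_zero (Nat.cast_ne_zero.2 pp_ne)) (by exact_mod_cast hD)
  refine Ir.gal pp_ne_two χ (fun T => isOpen_iff_mem_nhds.2 fun g₀ h₀ => ?_)
    (s := pp + 4 + (2 * pp * (4 * A ^ 3 + 27 * B ^ 2) : ℤ).natAbs) (Nat.le_add_right _ _)
    (fun l => al A B l) fun l hl k => ?_
  · filter_upwards [ev_ga g₀ (TM.cp T x)] with g hg
    have := pr T (c g - c g₀) (by rw [sub_smul, ← hc, ← hc, map_sub, cp_rho, cp_rho, hg, sub_self])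
    exact sub_add_sub_cancel (c g) (c g₀) 1 ▸ dvd_add this h₀
  have := Fact.mk hl
  have hg : ¬ (l : ℤ) ∣ 2 * pp * (4 * A ^ 3 + 27 * B ^ 2) := fun e => by
    have := Nat.le_of_dvd (Int.natAbs_pos.2 d0) (Int.natCast_dvd.1 e)
    omega
  rw [al_eq (hg_two hg)]
  refine ⟨fun P a b g e => ?_, by rw [neg_sq]; exact cs_le (hg_two hg), fun g f => ?_⟩
  · have e1 := congrArg Units.val (unr_rep hD hg P a b g e)
    rw [rep_val, Units.val_one, ← map_one (algebraMap ℤ_[pp] ℚ_[pp]).mapMatrix] at e1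
    have e2 := ev g
    rw [Matrix.map_injective Subtype.val_injective e1, one_mulVec] at e2
    exact sub_eq_zero.1 (v0 _ (by rw [sub_mul, one_mul, sub_eq_zero]; exact (congrFun e2 0).symm)
      (by rw [sub_mul, one_mul, sub_eq_zero]; exact (congrFun e2 1).symm))
  · obtain ⟨e1, e2⟩ := frob_mt hD hg f
    have a := congrFun (ev g) 0
    have b := congrFun (ev g) 1
    simp only [mulVec, dotProduct, Fin.sum_univ_two, Pi.smul_apply, smul_eq_mul] at a b
    rw [Int.cast_neg, ← e1, ← e2, trace_fin_two, det_fin_two]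
    change c g * (_ - c g) = _
    exact sub_eq_zero.1 (v0 _ (by linear_combination (c g - mt hD g 1 1) * a + mt hD g 0 1 * b)
      (by linear_combination mt hD g 1 0 * a + (c g - mt hD g 0 0) * b))

end Vale.Agent.P014U.X4M.TE
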